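import Mathlib

/-! Hensel's lemma for `k`-th powers modulo prime powers. -/

open Polynomial

namespace Vale.Agent.P042.H205

theorem lift_root {p k : ℕ} [Fact p.Prime] (z a : ℤ)
    (h : ‖((a ^ k - z : ℤ) : ℤ_[p])‖ < ‖((k * a ^ (k - 1) : ℤ) : ℤ_[p])‖ ^ 2) (N : ℕ) :
    ∃ n : ZMod (p ^ N), (z : ZMod (p ^ N)) = n ^ k := by
  have h1 : aeval (a : ℤ_[p]) (X ^ k - C (z : ℤ_[p]) : ℤ_[p][X]) = ((a ^ k - z : ℤ) : ℤ_[p]) := by
    simp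
  have h2 : aeval (a : ℤ_[p]) (derivative (X ^ k - C (z : ℤ_[p]) : ℤ_[p][X])) =
      ((k * a ^ (k - 1) : ℤ) : ℤ_[p]) := by
    simp [derivative_X_pow]
  obtain ⟨y, hy, -⟩ := hensels_lemma (p := p) (R := ℤ_[p]) (F := X ^ k - C (z : ℤ_[p]))
    (a := (a : ℤ_[p])) (by rw [h1, h2]; exact h)
  have h3 : y ^ k = (z : ℤ_[p]) := by
    simpa [sub_eq_zero] using hy
  refine ⟨PadicInt.toZModPow N y, ?_⟩
  rw [← map_pow, h3, map_intCast]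

theorem hensel_coprime {p k : ℕ} (hp : p.Prime) (hk : ¬ p ∣ k) (z : ℤ) (h0 : (z : ZMod p) ≠ 0)
    (hz : ∃ n : ZMod p, (z : ZMod p) = n ^ k) (N : ℕ) :
    ∃ n : ZMod (p ^ N), (z : ZMod (p ^ N)) = n ^ k := by
  have : Fact p.Prime := ⟨hp⟩
  obtain ⟨n, hn⟩ := hz
  obtain ⟨a, rfl⟩ := ZMod.intCast_surjective n
  have hk0 : k ≠ 0 := fun h => hk (h ▸ dvd_zero p)
  have ha : ¬ (p : ℤ) ∣ a := by
    intro h
    apply h0
    rw [hn, (ZMod.intCast_zmod_eq_zero_iff_dvd a p).2 h, zero_pow hk0]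
  have hp' : Prime (p : ℤ) := Nat.prime_iff_prime_int.1 hp
  have h1 : ‖((k * a ^ (k - 1) : ℤ) : ℤ_[p])‖ = 1 := by
    have h2 : ¬ ‖((k * a ^ (k - 1) : ℤ) : ℤ_[p])‖ < 1 := by
      rw [PadicInt.norm_int_lt_one_iff_dvd]
      intro h
      rcases hp'.dvd_or_dvd h with h | h
      · exact hk (Int.natCast_dvd_natCast.1 h)
      · exact ha (hp'.dvd_of_dvd_pow h)
    exact le_antisymm (PadicInt.norm_le_one _) (not_lt.1 h2)
  refine lift_root z a ?_ N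
  rw [h1, one_pow, PadicInt.norm_int_lt_one_iff_dvd,
    ← ZMod.intCast_zmod_eq_zero_iff_dvd]
  push_cast
  rw [hn, sub_self]

theorem hensel_dvd {p k : ℕ} (hp : p.Prime) (hk : 1 ≤ k) (z : ℤ)
    (hz : (z : ZMod (p ^ (2 * k))) = 1) (N : ℕ) :
    ∃ n : ZMod (p ^ N), (z : ZMod (p ^ N)) = n ^ k := by
  have : Fact p.Prime := ⟨hp⟩
  refine lift_root z 1 ?_ N
  have h1 : ‖(((1 : ℤ) ^ k - z : ℤ) : ℤ_[p])‖ ≤ (p : ℝ) ^ (-((2 * k : ℕ) : ℤ)) := by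
    rw [PadicInt.norm_int_le_pow_iff_dvd]
    have h2 : (((1 : ℤ) ^ k - z : ℤ) : ZMod (p ^ (2 * k))) = 0 := by
      push_cast
      rw [hz, one_pow, sub_self]
    have h3 := (ZMod.intCast_zmod_eq_zero_iff_dvd _ _).1 h2
    exact_mod_cast h3
  have h4 : ¬ ‖((k * (1 : ℤ) ^ (k - 1) : ℤ) : ℤ_[p])‖ ≤ (p : ℝ) ^ (-((k : ℕ) : ℤ)) := by
    rw [PadicInt.norm_int_le_pow_iff_dvd]
    intro h
    rw [one_pow, mul_one] at h
    have h5 : p ^ k ∣ k := by exact_mod_cast h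
    have h6 := Nat.le_of_dvd (by omega) h5
    have h7 : k < p ^ k := Nat.lt_pow_self hp.one_lt
    omega
  have h8 : (0 : ℝ) ≤ (p : ℝ) ^ (-((k : ℕ) : ℤ)) := by positivity
  refine h1.trans_lt ?_
  have h9 : (p : ℝ) ^ (-((2 * k : ℕ) : ℤ)) = ((p : ℝ) ^ (-((k : ℕ) : ℤ))) ^ 2 := by
    rw [← zpow_natCast, ← zpow_mul]
    congr 1
    push_cast
    ring
  rw [h9]
  exact pow_lt_pow_left₀ (not_le.1 h4) h8 two_ne_zero

end Vale.Agent.P042.H205
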